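import Mathlib.Analysis.Normed.Module.DoubleDual
import Mathlib.Analysis.Seminorm
import Mathlib.LinearAlgebra.FiniteDimensional.Basic
import Mathlib.Data.EReal.Basic

/-!
Asymptotic moduli of a norm on a real Banach space, as in P069.
-/

namespace Vale.Agent.P069

variable (X : Type*) [NormedAddCommGroup X] [NormedSpace ℝ X]

/-- Closed subspaces of finite codimension. -/
def Cof : Type _ :=
  {F : Submodule ℝ X // IsClosed (F : Set X) ∧ FiniteDimensional ℝ (X ⧸ F)}

variable {X}

/-- A norm equivalent to the norm of `X`. -/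
def IsEquivNorm (N : Seminorm ℝ X) : Prop :=
  ∃ a : ℝ, 0 < a ∧ ∃ b : ℝ, 0 < b ∧ ∀ x, a * ‖x‖ ≤ N x ∧ N x ≤ b * ‖x‖

/-- The modulus of asymptotic uniform convexity (an extended real number). -/
noncomputable def aucModulus (N : Seminorm ℝ X) (t : ℝ) : EReal :=
  ⨅ (x : X) (_ : N x = 1), ⨆ F : Cof X, ⨅ (y : X) (_ : y ∈ F.1 ∧ N y = 1),
    ((N (x + t • y) - 1 : ℝ) : EReal)

/-- The modulus of asymptotic midpoint uniform convexity (an extended real number). -/
noncomputable def amucModulus (N : Seminorm ℝ X) (t : ℝ) : EReal :=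
  ⨅ (x : X) (_ : N x = 1), ⨆ F : Cof X, ⨅ (y : X) (_ : y ∈ F.1 ∧ N y = 1),
    ((max (N (x + t • y)) (N (x - t • y)) - 1 : ℝ) : EReal)

/-- `N` is asymptotically uniformly convex. -/
def IsAUC (N : Seminorm ℝ X) : Prop := ∀ t : ℝ, 0 < t → 0 < aucModulus N t

/-- `N` is asymptotically midpoint uniformly convex. -/
def IsAMUC (N : Seminorm ℝ X) : Prop := ∀ t : ℝ, 0 < t → 0 < amucModulus N t

end Vale.Agent.P069
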