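import Vale.Agent.P069.Reflexive
import Vale.Agent.P069.Defs

/-!
The norm of `X` is AMUC, and no equivalent norm of `X` is AUC.
-/

open scoped ENNReal
open Filter

namespace Vale.Agent.P069

noncomputable section

/-- A functional of `X` that vanishes on all `delta v`, `v ∈ A`, is zero on the projection on
`A`. -/
theorem apply_proj_eq_zero {A : Finset Node} {w : X} (hw : ∀ v ∈ A, w (delta v) = 0) (y : Y) :
    w (proj A y) = 0 := by
  rw [proj_apply, map_sum]
  exact Finset.sum_eq_zero fun v hv => by simp [hw v hv]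

/-- The part of the running sums `S` whose sign is opposite to the sign of `σ`. -/
def oppPart (σ S : ℝ) : ℝ := if σ < 0 then max S 0 else min S 0

theorem oppPart_spec (σ S : ℝ) :
    (σ ≤ 0 ∧ 0 ≤ oppPart σ S ∨ 0 ≤ σ ∧ oppPart σ S ≤ 0) ∧
      (σ ≤ 0 ∧ 0 ≤ oppPart σ S - S ∨ 0 ≤ σ ∧ oppPart σ S - S ≤ 0) ∧
        |oppPart σ S| ≤ |S| ∧ |oppPart σ S - S| ≤ |S| := by
  unfold oppPart
  split_ifs with h
  · rcases le_total S 0 with hS | hS
    · rw [max_eq_right hS]
      exact ⟨Or.inl ⟨h.le, le_rfl⟩, Or.inl ⟨h.le, by linarith⟩, by simp, by simp⟩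
    · rw [max_eq_left hS]
      exact ⟨Or.inl ⟨h.le, hS⟩, Or.inl ⟨h.le, by simp⟩, le_rfl, by simp⟩
  · rcases le_total S 0 with hS | hS
    · rw [min_eq_left hS]
      exact ⟨Or.inr ⟨not_lt.1 h, hS⟩, Or.inr ⟨not_lt.1 h, by simp⟩, le_rfl, by simp⟩
    · rw [min_eq_right hS]
      exact ⟨Or.inr ⟨not_lt.1 h, le_rfl⟩, Or.inr ⟨not_lt.1 h, by linarith⟩, by simp, by simp⟩

theorem oppPart_lipschitz (σ S T : ℝ) :
    |oppPart σ S - oppPart σ T| ≤ |S - T| ∧
      |(oppPart σ S - S) - (oppPart σ T - T)| ≤ |S - T| := by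
  unfold oppPart
  split_ifs with h
  · refine ⟨abs_max_sub_max_le_abs S T 0, ?_⟩
    rcases le_total S 0 with hS | hS <;> rcases le_total T 0 with hT | hT <;>
      simp only [max_eq_left, max_eq_right, hS, hT] <;>
      rcases le_total S T with hST | hST <;>
      rw [abs_le] <;> constructor <;>
      linarith [le_abs_self (S - T), neg_abs_le (S - T)]
  · constructor <;>
    rcases le_total S 0 with hS | hS <;> rcases le_total T 0 with hT | hT <;>
      simp only [min_eq_left, min_eq_right, hS, hT] <;>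
      rcases le_total S T with hST | hST <;>
      rw [abs_le] <;> constructor <;>
      linarith [le_abs_self (S - T), neg_abs_le (S - T)]

theorem abs_add_le_of_opp {σ Q : ℝ} (h : σ ≤ 0 ∧ 0 ≤ Q ∨ 0 ≤ σ ∧ Q ≤ 0) :
    |σ + Q| ≤ max |σ| |Q| := by
  rw [abs_le]
  rcases h with ⟨h1, h2⟩ | ⟨h1, h2⟩
  · constructor
    · linarith [neg_abs_le σ, le_max_left |σ| |Q|]
    · linarith [le_abs_self Q, le_max_right |σ| |Q|]
  · constructor
    · linarith [neg_abs_le Q, le_max_right |σ| |Q|]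
    · linarith [le_abs_self σ, le_max_left |σ| |Q|]

theorem exists_chi {A : Finset Node} (hA : DownClosed (A : Set Node)) {φA ψ : Y}
    (hφA : ∀ v, v ∉ A → coord φA v = 0) (hψ : ∀ v ∈ A, coord ψ v = 0) :
    ∃ χ₁ χ₂ : Y, χ₁ - χ₂ = ψ ∧
      ∀ χ, χ = χ₁ ∨ χ = χ₂ → (∀ v ∈ A, coord χ v = 0) ∧ ‖χ‖ ≤ ‖ψ‖ ∧
        (∀ v, |coord χ v| ≤ |coord ψ v|) ∧
        ∀ n s, |run (coord χ) n s| ≤ rmax ψ n ∧
          (run (coord φA) n s ≤ 0 ∧ 0 ≤ run (coord χ) n s ∨
            0 ≤ run (coord φA) n s ∧ run (coord χ) n s ≤ 0) := by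
  set S : Node → ℝ := fun v => run (coord ψ) v.1 v.2 with hS
  set σ : Node → ℝ := fun v => run (coord φA) v.1 v.2 with hσ
  have hS0 : ∀ n s, (n, s) ∈ A → S (n, s) = 0 := by
    intro n s
    induction s with
    | nil => intro h; simpa [hS, run] using hψ _ h
    | cons a l ih =>
      intro h
      have := ih (hA n a l h)
      simp only [hS] at this ⊢
      simp [run, this, hψ _ h]
  have main : ∀ Q : Node → ℝ, (∀ v, S v = 0 → Q v = 0) →
      (∀ v, |Q v| ≤ |S v| ∧ (σ v ≤ 0 ∧ 0 ≤ Q v ∨ 0 ≤ σ v ∧ Q v ≤ 0)) →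
      (∀ v w, σ v = σ w → |Q v - Q w| ≤ |S v - S w|) →
      ∃ χ : Y, (∀ n s, run (coord χ) n s = Q (n, s)) ∧ coord χ = diff Q ∧
        (∀ v ∈ A, coord χ v = 0) ∧ ‖χ‖ ≤ ‖ψ‖ ∧
        (∀ v, |coord χ v| ≤ |coord ψ v|) ∧
        ∀ n s, |run (coord χ) n s| ≤ rmax ψ n ∧
          (run (coord φA) n s ≤ 0 ∧ 0 ≤ run (coord χ) n s ∨
            0 ≤ run (coord φA) n s ∧ run (coord χ) n s ≤ 0) := by
    intro Q h0 hb hl
    have hd : ∀ v, |diff Q v| ≤ |coord ψ v| := by
      rintro ⟨n, _ | ⟨a, l⟩⟩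
      · simpa [diff, hS, run] using (hb (n, [])).1
      · simp only [diff]
        by_cases hv : (n, a :: l) ∈ A
        · rw [h0 _ (hS0 _ _ hv), h0 _ (hS0 _ _ (hA n a l hv)), sub_zero, abs_zero]
          exact abs_nonneg _
        · refine (hl _ _ ?_).trans (le_of_eq ?_)
          · simp [hσ, run, hφA _ hv]
          · simp [hS, run]
    have hsupp : ∀ v : Node, v.1 < v.2.length → diff Q v = 0 := fun v hv => by
      simpa [coord_eq_zero ψ hv] using hd v
    obtain ⟨χ, hc, hn⟩ := exists_y (diff Q) (rmax ψ) (norm_nonneg ψ) hsupp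
      (fun n s => by rw [run_diff]; exact (hb _).1.trans (abs_run_le ψ n s))
      (fun F => le_trans (Finset.sum_le_sum fun v _ => sq_le_sq.2 (hd v)) (sum_coord_sq_le ψ F))
      (sum_rmax_sq_le ψ)
    refine ⟨χ, fun n s => by rw [hc, run_diff], hc, fun v hv => ?_, hn, fun v => by
      rw [hc]; exact hd v, fun n s => ?_⟩
    · rw [hc]
      simpa [hψ v hv] using hd v
    · rw [hc, run_diff]
      exact ⟨(hb (n, s)).1.trans (abs_run_le ψ n s), (hb (n, s)).2⟩
  obtain ⟨χ₁, r1, c1, p1⟩ := main (fun v => oppPart (σ v) (S v))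
    (fun v hv => by simp [oppPart, hv])
    (fun v => ⟨(oppPart_spec (σ v) (S v)).2.2.1, (oppPart_spec (σ v) (S v)).1⟩)
    (fun v w hvw => by rw [hvw]; exact (oppPart_lipschitz (σ w) (S v) (S w)).1)
  obtain ⟨χ₂, r2, c2, p2⟩ := main (fun v => oppPart (σ v) (S v) - S v)
    (fun v hv => by simp [oppPart, hv])
    (fun v => ⟨(oppPart_spec (σ v) (S v)).2.2.2, (oppPart_spec (σ v) (S v)).2.1⟩)
    (fun v w hvw => by rw [hvw]; exact (oppPart_lipschitz (σ w) (S v) (S w)).2)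
  refine ⟨χ₁, χ₂, ?_, ?_⟩
  · refine y_ext ?_
    rw [coord_sub, c1, c2]
    funext ⟨n, s⟩
    cases s <;> simp [diff, hS, run] <;> ring
  · rintro χ (rfl | rfl)
    · exact p1
    · exact p2

theorem norm_combine_le {A : Finset Node} {φA χ : Y} {ψ : Y} (hφ : ‖φA‖ ≤ 1)
    (hψ : ‖ψ‖ ≤ 2) (hA : ∀ v, v ∉ A → coord φA v = 0) (h0 : ∀ v ∈ A, coord χ v = 0)
    (h1 : ∀ v, |coord χ v| ≤ |coord ψ v|)
    (h2 : ∀ n s, |run (coord χ) n s| ≤ rmax ψ n ∧
      (run (coord φA) n s ≤ 0 ∧ 0 ≤ run (coord χ) n s ∨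
        0 ≤ run (coord φA) n s ∧ run (coord χ) n s ≤ 0)) {α β : ℝ} (hα : 0 ≤ α) (hβ : 0 ≤ β)
    (hαβ : α ^ 2 + 4 * β ^ 2 ≤ 1) : ‖α • φA + β • χ‖ ≤ 1 := by
  have hψ2 : ‖ψ‖ ^ 2 ≤ 4 := by nlinarith [norm_nonneg ψ]
  have hφ2 : ‖φA‖ ^ 2 ≤ 1 := by nlinarith [norm_nonneg φA]
  obtain ⟨w, hw, hwn⟩ := exists_y (α • coord φA + β • coord χ)
    (fun n => max (α * rmax φA n) (β * rmax ψ n)) zero_le_one
    (fun v hv => by simp [coord_eq_zero φA hv, coord_eq_zero χ hv])
    (fun n s => by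
      rw [run_add, run_smul, run_smul]
      refine (abs_add_le_of_opp ?_).trans (max_le_max ?_ ?_)
      · rcases (h2 n s).2 with ⟨a, b⟩ | ⟨a, b⟩
        · exact Or.inl ⟨mul_nonpos_of_nonneg_of_nonpos hα a, mul_nonneg hβ b⟩
        · exact Or.inr ⟨mul_nonneg hα a, mul_nonpos_of_nonneg_of_nonpos hβ b⟩
      · rw [abs_mul, abs_of_nonneg hα]; exact mul_le_mul_of_nonneg_left (abs_run_le φA n s) hα
      · rw [abs_mul, abs_of_nonneg hβ]; exact mul_le_mul_of_nonneg_left (h2 n s).1 hβ)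
    (fun F => by
      calc ∑ v ∈ F, (α • coord φA + β • coord χ) v ^ 2
          ≤ ∑ v ∈ F, (α ^ 2 * coord φA v ^ 2 + β ^ 2 * coord ψ v ^ 2) := by
            refine Finset.sum_le_sum fun v _ => ?_
            simp only [Pi.add_apply, Pi.smul_apply, smul_eq_mul]
            by_cases hv : v ∈ A
            · rw [h0 v hv]; simp [mul_pow]; positivity
            · rw [hA v hv]; simp [mul_pow]
              exact mul_le_mul_of_nonneg_left (sq_le_sq.2 (h1 v)) (sq_nonneg β)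
        _ = α ^ 2 * ∑ v ∈ F, coord φA v ^ 2 + β ^ 2 * ∑ v ∈ F, coord ψ v ^ 2 := by
            rw [Finset.sum_add_distrib, Finset.mul_sum, Finset.mul_sum]
        _ ≤ α ^ 2 * 1 + β ^ 2 * 4 := add_le_add
            (mul_le_mul_of_nonneg_left ((sum_coord_sq_le φA F).trans hφ2) (sq_nonneg α))
            (mul_le_mul_of_nonneg_left ((sum_coord_sq_le ψ F).trans hψ2) (sq_nonneg β))
        _ ≤ 1 ^ 2 := by linarith)
    (fun F => by
      calc ∑ n ∈ F, max (α * rmax φA n) (β * rmax ψ n) ^ 2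
          ≤ ∑ n ∈ F, (α ^ 2 * rmax φA n ^ 2 + β ^ 2 * rmax ψ n ^ 2) := by
            refine Finset.sum_le_sum fun n _ => ?_
            rcases max_choice (α * rmax φA n) (β * rmax ψ n) with h | h <;> rw [h, mul_pow] <;>
              nlinarith [mul_nonneg (sq_nonneg α) (sq_nonneg (rmax φA n)),
                mul_nonneg (sq_nonneg β) (sq_nonneg (rmax ψ n))]
        _ = α ^ 2 * ∑ n ∈ F, rmax φA n ^ 2 + β ^ 2 * ∑ n ∈ F, rmax ψ n ^ 2 := by
            rw [Finset.sum_add_distrib, Finset.mul_sum, Finset.mul_sum]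
        _ ≤ α ^ 2 * 1 + β ^ 2 * 4 := add_le_add
            (mul_le_mul_of_nonneg_left ((sum_rmax_sq_le φA F).trans hφ2) (sq_nonneg α))
            (mul_le_mul_of_nonneg_left ((sum_rmax_sq_le ψ F).trans hψ2) (sq_nonneg β))
        _ ≤ 1 ^ 2 := by linarith)
  have e : coord (α • φA + β • χ) = coord w := by rw [hw, coord_add, coord_smul, coord_smul]
  rw [y_ext e]
  exact hwn

/-- The kernel of evaluation at finitely many nodes, as a cofinite subspace. -/
theorem exists_cof (A : Finset Node) :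
    ∃ F : Cof X, ∀ w ∈ F.1, ∀ v ∈ A, w (delta v) = 0 := by
  set L : X →L[ℝ] ({v // v ∈ A} → ℝ) :=
    ContinuousLinearMap.pi fun v => NormedSpace.inclusionInDoubleDual ℝ Y (delta v.1) with hL
  refine ⟨⟨L.toLinearMap.ker, L.isClosed_ker, ?_⟩, ?_⟩
  · exact L.toLinearMap.quotKerEquivRange.symm.finiteDimensional
  · intro w hw v hv
    exact congrFun (LinearMap.mem_ker.1 hw) ⟨v, hv⟩

theorem amuc_arith {u : ℝ} (hu0 : 0 < u) (hu1 : u ≤ 1) :
    u ^ 2 / 256 + 1 ≤ (1 - 4 * (u / 32) ^ 2) * (1 - 3 * (u ^ 2 / 4096)) -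
      u / 32 * (2 * (u ^ 2 / 4096)) + u * (u / 32) * ((1 - u ^ 2 / 4096) / 2) := by
  have h2 : 0 ≤ u ^ 2 := sq_nonneg u
  have h3 : u ^ 3 ≤ u ^ 2 := by nlinarith
  have h4 : u ^ 4 ≤ u ^ 2 := by nlinarith
  nlinarith

/-- The midpoint modulus of the norm of `X` is at least `min t 1 ^ 2 / 256`. -/
theorem amuc_bound {t : ℝ} (ht : 0 < t) (z : X) (hz : ‖z‖ = 1) :
    ∃ F : Cof X, ∀ w ∈ F.1, ‖w‖ = 1 →
      min t 1 ^ 2 / 256 ≤ max ‖z + t • w‖ ‖z - t • w‖ - 1 := by
  set u : ℝ := min t 1 with hu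
  have hu0 : 0 < u := lt_min ht one_pos
  have hu1 : u ≤ 1 := min_le_right _ _
  have hut : u ≤ t := min_le_left _ _
  set ε : ℝ := u ^ 2 / 4096 with hεdef
  have hε : 0 < ε := by positivity
  obtain ⟨A, hA, hzA⟩ := tail_finset z hε
  obtain ⟨F, hF⟩ := exists_cof A
  refine ⟨F, fun w hw hw1 => ?_⟩
  have hwA := hF w hw
  obtain ⟨φ, hφ, hφ'⟩ := exists_near_norming z hε
  obtain ⟨ψ₀, hψ₀, hψ₀'⟩ := exists_near_norming w hε
  rw [hz] at hφ'
  rw [hw1] at hψ₀'
  set φA : Y := proj A φ with hφAdef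
  set ψ : Y := ψ₀ - proj A ψ₀ with hψdef
  have hψA : ∀ v ∈ A, coord ψ v = 0 := fun v hv => by
    rw [hψdef, coord_sub, coord_proj, Pi.sub_apply, Set.indicator_of_mem (Finset.mem_coe.2 hv),
      sub_self]
  have hφAA : ∀ v, v ∉ A → coord φA v = 0 := fun v hv => by
    rw [hφAdef, coord_proj]; exact Set.indicator_of_notMem (fun h => hv (Finset.mem_coe.1 h)) _
  have hφA1 : ‖φA‖ ≤ 1 := (norm_proj_le hA φ).trans hφ
  have hψ2 : ‖ψ‖ ≤ 2 := by
    linarith [norm_sub_le ψ₀ (proj A ψ₀), norm_proj_le hA ψ₀]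
  have hzφ : 1 - 3 * ε ≤ z φA := by
    have h1 := hzA (φ - φA) fun v hv => by
      rw [coord_sub, hφAdef, coord_proj, Pi.sub_apply,
        Set.indicator_of_mem (Finset.mem_coe.2 hv), sub_self]
    have h2 : ‖φ - φA‖ ≤ 2 := by linarith [norm_sub_le φ φA]
    rw [map_sub] at h1
    have h3 := h1.trans (mul_le_mul_of_nonneg_left h2 hε.le)
    linarith [(abs_le.1 h3).2]
  have hwψ : 1 - ε ≤ w ψ := by
    rw [hψdef, map_sub, apply_proj_eq_zero hwA, sub_zero]; exact hψ₀'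
  obtain ⟨χ₁, χ₂, hd, hχ⟩ := exists_chi hA hφAA hψA
  set β : ℝ := u / 32 with hβdef
  set α : ℝ := 1 - 4 * β ^ 2 with hαdef
  have hβ0 : 0 ≤ β := by positivity
  have hα0 : 0 ≤ α := by rw [hαdef, hβdef]; nlinarith
  have hβ1 : β ^ 2 ≤ 1 / 4 := by rw [hβdef]; nlinarith
  have hαβ : α ^ 2 + 4 * β ^ 2 ≤ 1 := by
    rw [hαdef]; nlinarith [mul_nonneg (sq_nonneg β) (sub_nonneg.2 hβ1)]
  have hε1 : ε ≤ 1 := by
    rw [hεdef]; linarith [pow_le_one₀ hu0.le hu1 (n := 2)]
  have key : ∀ χ, χ = χ₁ ∨ χ = χ₂ →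
      α * (1 - 3 * ε) - β * (2 * ε) + t * β * |w χ| ≤ max ‖z + t • w‖ ‖z - t • w‖ := by
    intro χ hc
    obtain ⟨c0, cn, c1, c2⟩ := hχ χ hc
    have hn := norm_combine_le hφA1 hψ2 hφAA c0 c1 c2 hα0 hβ0 hαβ
    have hzc : |z χ| ≤ 2 * ε := (hzA χ c0).trans
      (by linarith [mul_le_mul_of_nonneg_left (cn.trans hψ2) hε.le])
    have hwφ : w φA = 0 := apply_proj_eq_zero hwA φ
    have b : ∀ T : X, T (α • φA + β • χ) ≤ ‖T‖ := fun T =>
      (le_abs_self _).trans ((T.le_opNorm _).trans (mul_le_of_le_one_right (norm_nonneg T) hn))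
    have bp := b (z + t • w)
    have bm := b (z - t • w)
    simp only [add_apply, sub_apply, ContinuousLinearMap.smul_apply, map_add, map_smul,
      smul_eq_mul, hwφ] at bp bm
    have m1 := mul_le_mul_of_nonneg_left hzφ hα0
    have m2 := mul_le_mul_of_nonneg_left (abs_le.1 hzc).1 hβ0
    rcases abs_cases (w χ) with ⟨e, -⟩ | ⟨e, -⟩ <;> rw [e]
    · refine le_trans ?_ (le_max_left _ _); linarith
    · refine le_trans ?_ (le_max_right _ _); linarith
  have hsum : w χ₁ - w χ₂ = w ψ := by rw [← map_sub, hd]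
  have fin : ∀ χ, χ = χ₁ ∨ χ = χ₂ → (1 - ε) / 2 ≤ |w χ| →
      u ^ 2 / 256 ≤ max ‖z + t • w‖ ‖z - t • w‖ - 1 := by
    intro χ hc hwc
    have h := key χ hc
    have g1 : u * β * ((1 - ε) / 2) ≤ t * β * |w χ| :=
      mul_le_mul (mul_le_mul_of_nonneg_right hut hβ0) hwc (by linarith)
        (mul_nonneg ht.le hβ0)
    rw [hαdef, hβdef, hεdef] at h
    rw [hβdef, hεdef] at g1
    have hnum := amuc_arith hu0 hu1
    linarith
  by_cases hc : (1 - ε) / 2 ≤ |w χ₁|
  · exact fin χ₁ (Or.inl rfl) hc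
  · refine fin χ₂ (Or.inr rfl) ?_
    linarith [le_abs_self (w χ₁), neg_le_abs (w χ₂), not_le.1 hc]

theorem norm_evec_le (v : Node) : ‖evec v‖ ≤ 1 := LinearMap.mkContinuous_norm_le _ zero_le_one _

theorem norm_pathVec_le (n : ℕ) (s : List ℕ) : ‖pathVec n s‖ ≤ 1 :=
  LinearMap.mkContinuous_norm_le _ zero_le_one _

theorem one_le_norm_evec {v : Node} (hv : v.2.length ≤ v.1) : 1 ≤ ‖evec v‖ := by
  have h := (evec v).le_opNorm (delta v)
  rw [evec_apply, coord_delta, Pi.single_eq_same, if_pos hv, norm_one] at h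
  exact h.trans (mul_le_of_le_one_right (norm_nonneg _) (norm_delta_le v))

theorem pathVec_nil (n : ℕ) : pathVec n [] = evec (n, []) :=
  ContinuousLinearMap.ext fun _ => rfl

theorem pathVec_cons (n a : ℕ) (l : List ℕ) :
    pathVec n (a :: l) = pathVec n l + evec (n, a :: l) := by
  ext y
  simp [run, add_comm]

/-- The children of a node are weakly null, hence tend to every closed subspace of finite
codimension. -/
theorem exists_child_near (F : Cof X) (n : ℕ) (l : List ℕ) {η : ℝ} (hη : 0 < η) :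
    ∃ i : ℕ, ∃ f ∈ F.1, ‖evec (n, i :: l) - f‖ < η := by
  have : IsClosed (F.1 : Set X) := F.2.1
  have : FiniteDimensional ℝ (X ⧸ F.1) := F.2.2
  let q : X →L[ℝ] X ⧸ F.1 := F.1.mkQ.mkContinuous 1 fun x => by
    rw [one_mul]; exact Submodule.Quotient.norm_mk_le _ x
  let φ := (Module.finBasis ℝ (X ⧸ F.1)).equivFun.toContinuousLinearEquiv
  have hweak : ∀ Φ : StrongDual ℝ X, Tendsto (fun i => Φ (evec (n, i :: l))) atTop (nhds 0) := by
    intro Φ
    obtain ⟨y, hy⟩ := exists_eval Φ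
    simp only [hy, evec_apply]
    have hinj : Function.Injective fun i : ℕ => ((n, i :: l) : Node) := fun i j h => by simpa using h
    have h2 : Tendsto (fun i : ℕ => coord y (n, i :: l) ^ 2) atTop (nhds 0) :=
      ((summable_coord_sq y).comp_injective hinj).tendsto_atTop_zero
    have h3 := h2.sqrt
    simp only [Real.sqrt_sq_eq_abs, Real.sqrt_zero] at h3
    exact (tendsto_zero_iff_abs_tendsto_zero _).2 h3
  have h1 : Tendsto (fun i => φ (q (evec (n, i :: l)))) atTop (nhds 0) :=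
    tendsto_pi_nhds.2 fun k => hweak
      (((ContinuousLinearMap.proj (R := ℝ) k).comp φ.toContinuousLinearMap).comp q)
  have h2 : Tendsto (fun i => q (evec (n, i :: l))) atTop (nhds 0) := by
    have := (φ.symm.continuous.tendsto 0).comp h1
    simpa [Function.comp_def] using this
  obtain ⟨i, hi⟩ := (Metric.tendsto_atTop.1 h2 η hη)
  have hi' := hi i le_rfl
  rw [dist_zero_right] at hi'
  obtain ⟨m, hm, hmn⟩ := Submodule.Quotient.norm_mk_lt (q (evec (n, i :: l)))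
    (sub_pos.2 hi')
  refine ⟨i, evec (n, i :: l) - m, ?_, ?_⟩
  · rw [← Submodule.Quotient.mk_eq_zero, Submodule.Quotient.mk_sub, hm, sub_eq_zero]
    rfl
  · rw [sub_sub_cancel]
    linarith

theorem exists_cof_of_modulus {N : Seminorm ℝ X} {t δ : ℝ}
    (h : (δ : EReal) < aucModulus N t) (x : X) (hx : N x = 1) :
    ∃ F : Cof X, ∀ y ∈ F.1, N y = 1 → δ ≤ N (x + t • y) - 1 := by
  have h1 := lt_of_lt_of_le h (iInf₂_le x hx)
  obtain ⟨F, hF⟩ := lt_iSup_iff.1 h1
  refine ⟨F, fun y hy hy1 => ?_⟩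
  exact EReal.coe_le_coe_iff.1 (lt_of_lt_of_le hF (iInf₂_le y ⟨hy, hy1⟩)).le

theorem mono_param {N : Seminorm ℝ X} {x y : X} {t₀ t δ : ℝ} (hx : N x = 1) (hδ : 0 ≤ δ)
    (ht₀ : 0 < t₀) (ht : t₀ ≤ t) (h : δ ≤ N (x + t₀ • y) - 1) : δ ≤ N (x + t • y) - 1 := by
  have htp : 0 < t := ht₀.trans_le ht
  set r := t₀ / t with hr
  have hr0 : 0 < r := div_pos ht₀ htp
  have hr1 : r ≤ 1 := (div_le_one htp).2 ht
  have e : x + t₀ • y = (1 - r) • x + r • (x + t • y) := by
    rw [smul_add, smul_smul, hr, div_mul_cancel₀ _ htp.ne', sub_smul, one_smul]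
    abel
  have h2 : N (x + t₀ • y) ≤ (1 - r) * 1 + r * N (x + t • y) := by
    rw [e]
    refine (map_add_le_add N _ _).trans ?_
    rw [map_smul_eq_mul, map_smul_eq_mul, Real.norm_eq_abs, Real.norm_eq_abs,
      abs_of_nonneg (sub_nonneg.2 hr1), abs_of_pos hr0, hx]
  nlinarith

/-- No norm equivalent to that of `X` is AUC. -/
theorem not_isAUC (N : Seminorm ℝ X) (hN : IsEquivNorm N) : ¬ IsAUC N := by
  obtain ⟨a, ha, b, hb, hab⟩ := hN
  intro hauc
  set t₀ := a / (2 * b) with ht₀def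
  have ht₀ : 0 < t₀ := by positivity
  obtain ⟨δ, hδ0, hδ⟩ := EReal.lt_iff_exists_real_btwn.1 (hauc t₀ ht₀)
  have hδpos : 0 < δ := by exact_mod_cast hδ0
  set η := min (a / 2) (a * δ / 2) with hηdef
  have hη : 0 < η := lt_min (by positivity) (by positivity)
  obtain ⟨n, hn⟩ : ∃ n : ℕ, b < a * (1 + δ / 2) ^ n := by
    obtain ⟨n, hn⟩ := pow_unbounded_of_one_lt (b / a) (by linarith : (1 : ℝ) < 1 + δ / 2)
    exact ⟨n, by rw [div_lt_iff₀ ha] at hn; linarith⟩
  have step : ∀ k, k ≤ n → ∃ s : List ℕ, s.length = k ∧ a * (1 + δ / 2) ^ k ≤ N (pathVec n s) := by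
    intro k
    induction k with
    | zero =>
      intro _
      refine ⟨[], rfl, ?_⟩
      rw [pow_zero, mul_one, pathVec_nil]
      exact le_trans (le_mul_of_one_le_right ha.le (one_le_norm_evec (by simp))) (hab _).1
    | succ k ih =>
      intro hk
      obtain ⟨s, hs, hks⟩ := ih (by omega)
      set m := N (pathVec n s) with hm
      have hma : a ≤ m := le_trans (le_mul_of_one_le_right ha.le (one_le_pow₀ (by linarith))) hks
      have hmpos : 0 < m := ha.trans_le hma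
      have hmb : m ≤ b := le_trans (hab _).2 (mul_le_of_le_one_right hb.le (norm_pathVec_le n s))
      have hx : N (m⁻¹ • pathVec n s) = 1 := by
        rw [map_smul_eq_mul, Real.norm_eq_abs, abs_of_pos (inv_pos.2 hmpos), ← hm,
          inv_mul_cancel₀ hmpos.ne']
      obtain ⟨F, hF⟩ := exists_cof_of_modulus hδ _ hx
      obtain ⟨i, f, hfF, hf⟩ := exists_child_near F n s (div_pos hη hb)
      set e := evec (n, i :: s) with he
      have hef : N (e - f) ≤ η := by
        refine (hab _).2.trans ?_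
        rw [lt_div_iff₀ hb] at hf
        linarith
      have hNe : a ≤ N e := by
        refine le_trans (le_mul_of_one_le_right ha.le (one_le_norm_evec ?_)) (hab _).1
        simp only [List.length_cons]; omega
      have hNf : a / 2 ≤ N f := by
        have := map_add_le_add N (e - f) f
        rw [sub_add_cancel] at this
        linarith [min_le_left (a / 2) (a * δ / 2)]
      have hNfpos : 0 < N f := lt_of_lt_of_le (by positivity) hNf
      set y := (N f)⁻¹ • f with hy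
      have hy1 : N y = 1 := by
        rw [hy, map_smul_eq_mul, Real.norm_eq_abs, abs_of_pos (inv_pos.2 hNfpos),
          inv_mul_cancel₀ hNfpos.ne']
      set t := N f / m with ht
      have htt : t₀ ≤ t := by
        rw [ht₀def, ht, div_le_div_iff₀ (by positivity) hmpos]
        nlinarith [mul_le_mul hNf hmb hmpos.le hNfpos.le]
      have hgain := mono_param hx hδpos.le ht₀ htt (hF y (F.1.smul_mem _ hfF) hy1)
      have hxy : m⁻¹ • pathVec n s + t • y = m⁻¹ • (pathVec n s + f) := by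
        rw [hy, smul_smul, ht, div_mul_eq_mul_div, mul_inv_cancel₀ hNfpos.ne', one_div, smul_add]
      rw [hxy, map_smul_eq_mul, Real.norm_eq_abs, abs_of_pos (inv_pos.2 hmpos)] at hgain
      have hbig : m * (1 + δ) ≤ N (pathVec n s + f) := by
        have h' : 1 + δ ≤ m⁻¹ * N (pathVec n s + f) := by linarith
        rwa [le_inv_mul_iff₀ hmpos] at h'
      refine ⟨i :: s, by simp [hs], ?_⟩
      have h3 : N (pathVec n s + f) ≤ N (pathVec n (i :: s)) + η := by
        have e2 : pathVec n s + f = pathVec n (i :: s) + -(e - f) := by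
          rw [pathVec_cons, he]; abel
        rw [e2]
        refine (map_add_le_add N _ _).trans ?_
        rw [map_neg_eq_map]
        linarith
      have h4 : η ≤ m * δ / 2 := le_trans (min_le_right _ _) (by nlinarith)
      rw [pow_succ]
      nlinarith
  obtain ⟨s, -, hs⟩ := step n le_rfl
  have := le_trans (hab _).2 (mul_le_of_le_one_right hb.le (norm_pathVec_le n s))
  linarith

theorem not_finiteDimensional : ¬ FiniteDimensional ℝ X := by
  intro h
  have hli : LinearIndependent ℝ fun n : ℕ => evec (n, []) := by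
    rw [linearIndependent_iff']
    intro s g hg i hi
    have := DFunLike.congr_fun hg (delta (i, []))
    simpa [coord_delta, Pi.single_apply, hi] using this
  have := hli.finite
  exact not_finite ℕ

theorem isAMUC_norm : IsAMUC (normSeminorm ℝ X) := by
  intro t ht
  have hpos : (0 : EReal) < ((min t 1 ^ 2 / 256 : ℝ) : EReal) := by
    have : 0 < min t 1 := lt_min ht one_pos
    exact_mod_cast (by positivity : (0 : ℝ) < min t 1 ^ 2 / 256)
  refine lt_of_lt_of_le hpos (le_iInf₂ fun x hx => ?_)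
  obtain ⟨F, hF⟩ := amuc_bound ht x hx
  refine le_iSup_of_le F (le_iInf₂ fun w hw => ?_)
  exact EReal.coe_le_coe_iff.2 (hF w hw.1 hw.2)

theorem isEquivNorm_norm : IsEquivNorm (normSeminorm ℝ X) :=
  ⟨1, one_pos, 1, one_pos, fun x => by simp⟩

end

end Vale.Agent.P069
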