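import Vale.Agent.P069.Space

/-!
Every functional on `Y` is almost concentrated on a finite set of nodes, and `Y`, hence its dual
`X`, is reflexive.
-/

open scoped ENNReal
open Filter

namespace Vale.Agent.P069

noncomputable section

theorem exists_near_norming (f : X) {δ : ℝ} (hδ : 0 < δ) :
    ∃ y : Y, ‖y‖ ≤ 1 ∧ ‖f‖ - δ ≤ f y := by
  rcases lt_or_ge (‖f‖ - δ) 0 with h | h
  · exact ⟨0, by simp, by simpa using h.le⟩
  · obtain ⟨y, hy, hy'⟩ := f.exists_lt_apply_of_lt_opNorm (by linarith : ‖f‖ - δ < ‖f‖)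
    rw [Real.norm_eq_abs] at hy'
    rcases le_or_gt 0 (f y) with h' | h'
    · exact ⟨y, hy.le, by rw [abs_of_nonneg h'] at hy'; exact hy'.le⟩
    · exact ⟨-y, by simpa using hy.le, by rw [abs_of_neg h'] at hy'; simpa using hy'.le⟩

theorem downClosed_tree (p : ℕ → Prop) : DownClosed {v : Node | p v.1} := fun _ _ _ h => h

theorem summable_coord_sq (y : Y) : Summable fun v => coord y v ^ 2 :=
  summable_of_sum_le (fun _ => sq_nonneg _) (sum_coord_sq_le y)

theorem summable_rmax_sq (y : Y) : Summable fun n => rmax y n ^ 2 :=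
  summable_of_sum_le (fun _ => sq_nonneg _) (sum_rmax_sq_le y)

theorem exists_finset_tail {α : Type*} {g : α → ℝ} (hg : Summable g) (h0 : ∀ a, 0 ≤ g a) {ε : ℝ}
    (hε : 0 < ε) : ∃ S : Finset α, ∀ F : Finset α, Disjoint F S → ∑ a ∈ F, g a ≤ ε := by
  obtain ⟨S, hS⟩ := summable_iff_vanishing.1 hg _ (Metric.ball_mem_nhds (0 : ℝ) hε)
  refine ⟨S, fun F hF => ?_⟩
  have := hS F hF
  rw [Metric.mem_ball, dist_zero_right, Real.norm_eq_abs,
    abs_of_nonneg (Finset.sum_nonneg fun a _ => h0 a)] at this
  exact this.le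

/-- Every element of `Y` is approximated by its restrictions to finitely many trees. -/
theorem exists_trunc (y : Y) {ε : ℝ} (hε : 0 < ε) : ∃ N : ℕ, ∀ y' : Y,
    coord y' = {v : Node | v.1 < N}.indicator (coord y) → ‖y - y'‖ ≤ ε := by
  obtain ⟨S, hS⟩ := exists_finset_tail (summable_coord_sq y) (fun _ => sq_nonneg _) (pow_pos hε 2)
  obtain ⟨T, hT⟩ := exists_finset_tail (summable_rmax_sq y) (fun _ => sq_nonneg _) (pow_pos hε 2)
  obtain ⟨N, hN⟩ : ∃ N, ∀ n ∈ T ∪ S.image Prod.fst, n < N :=
    ⟨(T ∪ S.image Prod.fst).sup id + 1, fun n hn => Nat.lt_succ_of_le (Finset.le_sup (f := id) hn)⟩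
  refine ⟨N, fun y' hy' => ?_⟩
  have hc : coord (y - y') = {v : Node | N ≤ v.1}.indicator (coord y) := by
    funext v
    rw [coord_sub, hy', Pi.sub_apply, Set.indicator_apply, Set.indicator_apply]
    by_cases h : v.1 < N
    · simp [h, not_le.2 h]
    · simp [h, not_lt.1 h]
  refine Exists.elim (exists_y ({v : Node | N ≤ v.1}.indicator (coord y))
    (fun n => if N ≤ n then rmax y n else 0) hε.le ?_ ?_ ?_ ?_) ?_
  · intro v hv
    simp [Set.indicator_apply, coord_eq_zero y hv]
  · intro n s
    split_ifs with h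
    · exact abs_run_indicator_le (downClosed_tree (fun m => N ≤ m)) _ n (abs_run_le y n) s
    · have h0 : ∀ t, run ({v : Node | N ≤ v.1}.indicator (coord y)) n t = 0 := by
        intro t
        induction t with
        | nil => simp [run, Set.indicator_apply, h]
        | cons a l ih => simp [run, Set.indicator_apply, h, ih]
      simp [h0]
  · intro F
    refine le_trans (le_of_eq ?_) (hS (F.filter fun v => N ≤ v.1) ?_)
    · rw [Finset.sum_filter]
      refine Finset.sum_congr rfl fun v _ => ?_
      rw [Set.indicator_apply]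
      by_cases h : N ≤ v.1 <;> simp [h]
    · rw [Finset.disjoint_left]
      intro v hv hv'
      have := hN v.1 (Finset.mem_union_right _ (Finset.mem_image_of_mem _ hv'))
      have := (Finset.mem_filter.1 hv).2
      omega
  · intro F
    refine le_trans (le_of_eq ?_) (hT (F.filter fun n => N ≤ n) ?_)
    · rw [Finset.sum_filter]
      refine Finset.sum_congr rfl fun n _ => ?_
      by_cases h : N ≤ n <;> simp [h]
    · rw [Finset.disjoint_left]
      intro n hn hn'
      have := hN n (Finset.mem_union_left _ hn')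
      have := (Finset.mem_filter.1 hn).2
      omega
  · rintro z ⟨hz, hzn⟩
    rw [y_ext (hc.trans hz.symm)]; exact hzn

/-- If `u` lives on the trees `< N` and `z` on the others then their norms add quadratically. -/
theorem norm_add_le_of_trees {N : ℕ} (u z : Y) (hu : ∀ v : Node, N ≤ v.1 → coord u v = 0)
    (hz : ∀ v : Node, v.1 < N → coord z v = 0) {C : ℝ} (hC : 0 ≤ C)
    (h : ‖u‖ ^ 2 + ‖z‖ ^ 2 ≤ C ^ 2) : ‖u + z‖ ≤ C := by
  have r0 : ∀ (w : Y) (n : ℕ), (∀ s, coord w (n, s) = 0) → ∀ s, run (coord w) n s = 0 := by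
    intro w n hw s
    induction s with
    | nil => simpa [run] using hw []
    | cons a l ih => simp [run, hw, ih]
  refine Exists.elim (exists_y (coord u + coord z)
    (fun n => if n < N then rmax u n else rmax z n) hC ?_ ?_ ?_ ?_) ?_
  · intro v hv; simp [coord_eq_zero u hv, coord_eq_zero z hv]
  · intro n s
    rw [run_add]
    split_ifs with hn
    · rw [r0 z n (fun t => hz _ hn), add_zero]; exact abs_run_le u n s
    · rw [r0 u n (fun t => hu _ (not_lt.1 hn)), zero_add]; exact abs_run_le z n s
  · intro F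
    calc ∑ v ∈ F, (coord u + coord z) v ^ 2
        = ∑ v ∈ F, coord u v ^ 2 + ∑ v ∈ F, coord z v ^ 2 := by
          rw [← Finset.sum_add_distrib]
          refine Finset.sum_congr rfl fun v _ => ?_
          by_cases hv : v.1 < N
          · simp [hz v hv]
          · simp [hu v (not_lt.1 hv)]
      _ ≤ _ := le_trans (add_le_add (sum_coord_sq_le u F) (sum_coord_sq_le z F)) h
  · intro F
    calc ∑ n ∈ F, (if n < N then rmax u n else rmax z n) ^ 2
        ≤ ∑ n ∈ F, (rmax u n ^ 2 + rmax z n ^ 2) := by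
          refine Finset.sum_le_sum fun n _ => ?_
          split_ifs
          · exact le_add_of_nonneg_right (sq_nonneg _)
          · exact le_add_of_nonneg_left (sq_nonneg _)
      _ = ∑ n ∈ F, rmax u n ^ 2 + ∑ n ∈ F, rmax z n ^ 2 := Finset.sum_add_distrib
      _ ≤ _ := le_trans (add_le_add (sum_rmax_sq_le u F) (sum_rmax_sq_le z F)) h
  · rintro w ⟨hw, hwn⟩
    rw [y_ext ((coord_add u z).trans hw.symm)]; exact hwn

/-- Functionals on `Y` are small on the distant trees. -/
theorem tail_trees (f : X) {ε : ℝ} (hε : 0 < ε) :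
    ∃ N : ℕ, ∀ z : Y, (∀ v : Node, v.1 < N → coord z v = 0) → |f z| ≤ ε * ‖z‖ := by
  have hf := norm_nonneg f
  set s : ℝ := ε / (2 * (‖f‖ + 1)) with hs
  have hs0 : 0 < s := by positivity
  set δ : ℝ := s * ε / (2 * (‖f‖ + 1)) with hδ
  have hδ0 : 0 < δ := by positivity
  obtain ⟨y₀, hy₀, hy₀'⟩ := exists_near_norming f hδ0
  obtain ⟨N, hN⟩ := exists_trunc y₀ hδ0
  obtain ⟨y₁, h1, h1n⟩ := exists_restrict (downClosed_tree (fun m => m < N)) y₀
  have happ : ‖f‖ - δ - ‖f‖ * δ ≤ f y₁ := by
    have h2 := (f.le_opNorm (y₀ - y₁)).trans (mul_le_mul_of_nonneg_left (hN y₁ h1) hf)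
    rw [map_sub, Real.norm_eq_abs] at h2
    linarith [(abs_le.1 h2).2]
  have key : ∀ z : Y, (∀ v : Node, v.1 < N → coord z v = 0) → ‖z‖ ≤ 1 → f z ≤ ε := by
    intro z hz hz1
    have hb : ‖y₁ + s • z‖ ≤ 1 + s ^ 2 := by
      refine norm_add_le_of_trees (N := N) y₁ (s • z) ?_ ?_ (by positivity) ?_
      · intro v hv; rw [h1]; exact Set.indicator_of_notMem (by simpa using hv) _
      · intro v hv; simp [coord_smul, hz v hv]
      · rw [norm_smul, Real.norm_eq_abs, abs_of_pos hs0]
        nlinarith [norm_nonneg y₁, norm_nonneg z, h1n.trans hy₀,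
          mul_le_mul_of_nonneg_left hz1 hs0.le, mul_nonneg hs0.le (norm_nonneg z)]
    have h2 := (le_abs_self _).trans ((f.le_opNorm (y₁ + s • z)).trans
      (mul_le_mul_of_nonneg_left hb hf))
    rw [map_add, map_smul, smul_eq_mul] at h2
    have h3 : δ * (2 * (‖f‖ + 1)) = s * ε := by rw [hδ]; field_simp
    have h4 : s * (2 * (‖f‖ + 1)) = ε := by rw [hs]; field_simp
    refine le_of_mul_le_mul_left ?_ hs0
    nlinarith
  refine ⟨N, fun z hz => ?_⟩
  rcases (norm_nonneg z).eq_or_lt with h | h
  · simp [norm_eq_zero.1 h.symm]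
  · have hz' : ∀ c : ℝ, |c| = ‖z‖⁻¹ → c * f z ≤ ε := fun c hc => by
      have := key (c • z) (fun v hv => by simp [coord_smul, hz v hv])
        (by rw [norm_smul, Real.norm_eq_abs, hc, inv_mul_cancel₀ h.ne'])
      simpa using this
    have a1 := hz' ‖z‖⁻¹ (abs_of_pos (inv_pos.2 h))
    have a2 := hz' (-‖z‖⁻¹) (by rw [abs_neg, abs_of_pos (inv_pos.2 h)])
    rw [inv_mul_le_iff₀ h] at a1
    rw [neg_mul, ← mul_neg, inv_mul_le_iff₀ h] at a2
    rw [abs_le]
    constructor <;> linarith

theorem exists_embed (N : ℕ) (h : SqSum) : ∃ y : Y,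
    coord y = {v : Node | v.1 < N ∧ v.2.length ≤ v.1}.indicator (h : Node → ℝ) ∧
      ‖y‖ ≤ ((N : ℝ) + 1) ^ 2 * ‖h‖ := by
  set A : Set Node := {v : Node | v.1 < N ∧ v.2.length ≤ v.1} with hA
  have hh : ∀ v : Node, |(h : Node → ℝ) v| ≤ ‖h‖ := fun v => by
    simpa using lp.norm_apply_le_norm (by norm_num : (2 : ℝ≥0∞) ≠ 0) h v
  have hone : (1 : ℝ) ≤ ((N : ℝ) + 1) ^ 2 := one_le_pow₀ (by simp)
  have hr : ∀ n s, |run (A.indicator (h : Node → ℝ)) n s| ≤
      if n < N then (min s.length n + 1 : ℕ) * ‖h‖ else 0 := by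
    intro n s
    by_cases hn : n < N
    · rw [if_pos hn]
      induction s with
      | nil =>
        simp only [run, List.length_nil, zero_le, min_eq_left, zero_add, Nat.cast_one, one_mul]
        rw [Set.indicator_apply]
        split_ifs
        · exact hh _
        · simp
      | cons a l ih =>
        simp only [run, List.length_cons]
        by_cases hl : l.length + 1 ≤ n
        · have : (n, a :: l) ∈ A := ⟨hn, by simpa using hl⟩
          rw [Set.indicator_of_mem this, min_eq_left hl]
          rw [min_eq_left (by omega : l.length ≤ n)] at ih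
          push_cast at ih ⊢
          linarith [abs_add_le ((h : Node → ℝ) (n, a :: l)) (run (A.indicator (h : Node → ℝ)) n l),
            hh (n, a :: l)]
        · have : (n, a :: l) ∉ A := fun h' => hl (by simpa using h'.2)
          rw [Set.indicator_of_notMem this, zero_add, min_eq_right (by omega : n ≤ l.length + 1)]
          rwa [min_eq_right (by omega : n ≤ l.length)] at ih
    · rw [if_neg hn]
      have h0 : ∀ t, run (A.indicator (h : Node → ℝ)) n t = 0 := by
        intro t
        induction t with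
        | nil => simp [run, hA, Set.indicator_apply, hn]
        | cons a l ih => simp [run, hA, Set.indicator_apply, hn]; simpa [hA] using ih
      simp [h0]
  refine exists_y _ (fun n => if n < N then (N : ℝ) * ‖h‖ else 0) (by positivity) ?_ ?_ ?_ ?_
  · intro v hv
    exact Set.indicator_of_notMem (fun h' => absurd h'.2 (by omega)) _
  · intro n s
    refine (hr n s).trans ?_
    split_ifs with hn
    · refine mul_le_mul_of_nonneg_right ?_ (norm_nonneg _)
      exact_mod_cast (by omega : min s.length n + 1 ≤ N)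
    · exact le_rfl
  · intro F
    refine le_trans (le_trans ?_ (sum_norm_sq_le h F)) ?_
    · refine Finset.sum_le_sum fun v _ => ?_
      rw [Real.norm_eq_abs, sq_abs, Set.indicator_apply]
      split_ifs
      · exact le_rfl
      · simpa using sq_nonneg ((h : Node → ℝ) v)
    · exact pow_le_pow_left₀ (norm_nonneg _) (le_mul_of_one_le_left (norm_nonneg _) hone) 2
  · intro F
    calc ∑ n ∈ F, (if n < N then (N : ℝ) * ‖h‖ else 0) ^ 2
        = ∑ n ∈ F.filter (· < N), ((N : ℝ) * ‖h‖) ^ 2 := by
          rw [Finset.sum_filter]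
          refine Finset.sum_congr rfl fun n _ => ?_
          split_ifs <;> simp
      _ ≤ (N : ℝ) * ((N : ℝ) * ‖h‖) ^ 2 := by
          rw [Finset.sum_const, nsmul_eq_mul]
          refine mul_le_mul_of_nonneg_right ?_ (sq_nonneg _)
          have : F.filter (· < N) ⊆ Finset.range N := fun n hn =>
            Finset.mem_range.2 (Finset.mem_filter.1 hn).2
          exact_mod_cast (Finset.card_le_card this).trans_eq (Finset.card_range N)
      _ ≤ (((N : ℝ) + 1) ^ 2 * ‖h‖) ^ 2 := by
          have h0 : (0 : ℝ) ≤ N := by positivity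
          rw [mul_pow, mul_pow, ← mul_assoc]
          refine mul_le_mul_of_nonneg_right ?_ (sq_nonneg _)
          nlinarith [pow_nonneg h0 3, pow_nonneg h0 4]

/-- Square summable functions restricted to the first `N` trees, as elements of `Y`. -/
def embed (N : ℕ) : SqSum →L[ℝ] Y :=
  LinearMap.mkContinuous
    { toFun := fun h => (exists_embed N h).choose
      map_add' := fun g h => y_ext (by
        rw [coord_add, (exists_embed N g).choose_spec.1, (exists_embed N h).choose_spec.1,
          (exists_embed N (g + h)).choose_spec.1, ← Set.indicator_add']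
        rfl)
      map_smul' := fun c h => y_ext (by
        rw [RingHom.id_apply, coord_smul, (exists_embed N h).choose_spec.1,
          (exists_embed N (c • h)).choose_spec.1]
        exact Set.indicator_const_smul _ c _) }
    (((N : ℝ) + 1) ^ 2) fun h => (exists_embed N h).choose_spec.2

theorem coord_embed (N : ℕ) (h : SqSum) :
    coord (embed N h) = {v : Node | v.1 < N ∧ v.2.length ≤ v.1}.indicator (h : Node → ℝ) :=
  (exists_embed N h).choose_spec.1

/-- Functionals on `Y` are small off a finite, downward closed, set of nodes. -/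
theorem tail_finset (f : X) {ε : ℝ} (hε : 0 < ε) : ∃ A : Finset Node, DownClosed (A : Set Node) ∧
    ∀ z : Y, (∀ v ∈ A, coord z v = 0) → |f z| ≤ ε * ‖z‖ := by
  obtain ⟨N, hN⟩ := tail_trees f (half_pos hε)
  set g : StrongDual ℝ SqSum := f.comp (embed N) with hg
  set w : SqSum := (InnerProductSpace.toDual ℝ SqSum).symm g with hw
  have hsum : HasSum (fun v => lp.single 2 v ((w : Node → ℝ) v)) w :=
    lp.hasSum_single (by norm_num) w
  obtain ⟨A₀, hA₀⟩ := (Metric.tendsto_atTop.1 hsum) (ε / 2) (half_pos hε)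
  refine ⟨closure' A₀, downClosed_closure' A₀, fun z hz => ?_⟩
  set low : Y := embed N z.1.1 with hlow
  have hlc : coord low = {v : Node | v.1 < N}.indicator (coord z) := by
    rw [hlow, coord_embed]
    funext v
    rw [Set.indicator_apply, Set.indicator_apply]
    by_cases h1 : v.1 < N
    · by_cases h2 : v.2.length ≤ v.1
      · simp [h1, h2, coord]
      · simp [h1, h2, coord_eq_zero z (not_le.1 h2)]
    · simp [h1]
  have hhigh : coord (z - low) = {v : Node | N ≤ v.1}.indicator (coord z) := by
    rw [coord_sub, hlc]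
    funext v
    rw [Pi.sub_apply, Set.indicator_apply, Set.indicator_apply]
    by_cases h : v.1 < N
    · simp [h, not_le.2 h]
    · simp [h, not_lt.1 h]
  have hhn : ‖z - low‖ ≤ ‖z‖ := by
    obtain ⟨y', h1, h2⟩ := exists_restrict (downClosed_tree (fun m => N ≤ m)) z
    rw [y_ext (hhigh.trans h1.symm)]
    exact h2
  have b1 : |f (z - low)| ≤ ε / 2 * ‖z‖ := by
    refine (hN _ fun v hv => ?_).trans (mul_le_mul_of_nonneg_left hhn (half_pos hε).le)
    rw [hhigh]
    exact Set.indicator_of_notMem (by simpa using hv) _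
  have b2 : |f low| ≤ ε / 2 * ‖z‖ := by
    set P : SqSum := ∑ v ∈ closure' A₀, lp.single 2 v ((w : Node → ℝ) v) with hP
    have hPw : ‖w - P‖ ≤ ε / 2 := by
      have := hA₀ (closure' A₀) (subset_closure' A₀)
      rw [dist_eq_norm, norm_sub_rev] at this
      exact this.le
    have hP0 : inner ℝ P z.1.1 = 0 := by
      rw [hP, sum_inner]
      refine Finset.sum_eq_zero fun v hv => ?_
      rw [lp.inner_single_left]
      have : (z.1.1 : Node → ℝ) v = 0 := hz v hv
      simp [this]
    have e : f low = inner ℝ (w - P) z.1.1 := by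
      rw [inner_sub_left, hP0, sub_zero, hw, InnerProductSpace.toDual_symm_apply, hlow, hg]
      rfl
    rw [e]
    refine (abs_real_inner_le_norm _ _).trans ?_
    exact mul_le_mul hPw (norm_fst_le z.1) (norm_nonneg _) (half_pos hε).le
  calc |f z| = |f (z - low) + f low| := by rw [map_sub, sub_add_cancel]
    _ ≤ |f (z - low)| + |f low| := abs_add_le _ _
    _ ≤ ε * ‖z‖ := by linarith

theorem eval_proj (f : X) (A : Finset Node) :
    f.comp (proj A) = ∑ v ∈ A, f (delta v) • evec v := by
  ext y
  simp [proj_apply, map_sum, mul_comm]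

theorem sum_ciSup_le {α β : Type*} [Nonempty β] (f : α → β → ℝ) (F : Finset α) :
    ∀ K : ℝ, (∀ s : α → β, ∑ n ∈ F, f n (s n) ≤ K) → ∑ n ∈ F, ⨆ b, f n b ≤ K := by
  classical
  induction F using Finset.induction with
  | empty => intro K h; simpa using h fun _ => Classical.arbitrary β
  | @insert a F ha ih =>
    intro K h
    rw [Finset.sum_insert ha, ← le_sub_iff_add_le]
    refine ciSup_le fun b => ?_
    rw [le_sub_comm]
    refine ih _ fun s => ?_
    have h2 := h (Function.update s a b)
    rw [Finset.sum_insert ha, Function.update_self] at h2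
    have : ∑ n ∈ F, f n (Function.update s a b n) = ∑ n ∈ F, f n (s n) :=
      Finset.sum_congr rfl fun n hn => by
        rw [Function.update_of_ne (fun e : n = a => ha (e ▸ hn))]
    linarith

/-- `Y` is reflexive. -/
theorem exists_eval (Φ : StrongDual ℝ X) : ∃ y : Y, ∀ f : X, Φ f = f y := by
  set h : Node → ℝ := fun v => Φ (evec v) with hh
  have hK : ∀ A : Finset Node, DownClosed (A : Set Node) →
      ∃ u : Y, coord u = (A : Set Node).indicator h ∧ ‖u‖ ≤ ‖Φ‖ := by
    intro A hA
    refine ⟨∑ v ∈ A, h v • delta v, ?_, ?_⟩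
    · funext w
      have e : coord (∑ v ∈ A, h v • delta v) w = evec w (∑ v ∈ A, h v • delta v) := rfl
      rw [e, map_sum]
      simp only [map_smul, evec_apply, coord_delta, smul_eq_mul, Pi.single_apply, mul_ite,
        mul_zero, mul_one, Finset.sum_ite_eq, Set.indicator_apply, Finset.mem_coe]
      split_ifs with h1 h2
      · rfl
      · have : evec w = 0 := ContinuousLinearMap.ext fun y => coord_eq_zero y (by omega)
        simp [hh, this]
      · rfl
    · refine NormedSpace.norm_le_dual_bound ℝ _ (norm_nonneg _) fun f => ?_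
      have e : f (∑ v ∈ A, h v • delta v) = Φ (f.comp (proj A)) := by
        rw [eval_proj, map_sum, map_sum]
        simp [hh, mul_comm]
      rw [e]
      refine (Φ.le_opNorm _).trans (mul_le_mul_of_nonneg_left ?_ (norm_nonneg Φ))
      refine ContinuousLinearMap.opNorm_le_bound _ (norm_nonneg f) fun y => ?_
      exact (f.le_opNorm _).trans (mul_le_mul_of_nonneg_left (norm_proj_le hA y) (norm_nonneg f))
  have hrun : ∀ (F : Finset ℕ) (s : ℕ → List ℕ),
      ∑ n ∈ F, run h n (s n) ^ 2 ≤ ‖Φ‖ ^ 2 := by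
    intro F s
    obtain ⟨u, hu, hun⟩ := hK (closure' (F.image fun n => (n, s n))) (downClosed_closure' _)
    refine le_trans ?_ ((sum_rmax_sq_le u F).trans (pow_le_pow_left₀ (norm_nonneg _) hun 2))
    refine Finset.sum_le_sum fun n hn => ?_
    rw [← sq_abs]
    refine pow_le_pow_left₀ (abs_nonneg _) ?_ 2
    have := abs_run_le u n (s n)
    rwa [hu, run_indicator_of_mem (downClosed_closure' _) h n (s n) (Finset.mem_coe.2
      (subset_closure' _ (Finset.mem_image_of_mem (fun n => (n, s n)) hn)))] at this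
  have hbdd : ∀ n, BddAbove (Set.range fun s => run h n s ^ 2) := fun n =>
    ⟨‖Φ‖ ^ 2, by rintro _ ⟨s, rfl⟩; simpa using hrun {n} (fun _ => s)⟩
  obtain ⟨y, hy, -⟩ := exists_y h (fun n => Real.sqrt (⨆ s, run h n s ^ 2)) (norm_nonneg Φ)
    (fun v hv => by
      have : evec v = 0 := ContinuousLinearMap.ext fun y => coord_eq_zero y hv
      simp [hh, this])
    (fun n s => Real.abs_le_sqrt (le_ciSup (hbdd n) s))
    (fun F => by
      obtain ⟨u, hu, hun⟩ := hK (closure' F) (downClosed_closure' F)
      refine le_trans (le_of_eq ?_) ((sum_coord_sq_le u F).trans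
        (pow_le_pow_left₀ (norm_nonneg _) hun 2))
      refine Finset.sum_congr rfl fun v hv => ?_
      rw [hu, Set.indicator_of_mem (Finset.mem_coe.2 (subset_closure' F hv))])
    (fun F => by
      refine le_trans (le_of_eq ?_) (sum_ciSup_le (fun n s => run h n s ^ 2) F _ (hrun F))
      refine Finset.sum_congr rfl fun n _ => ?_
      exact Real.sq_sqrt ((sq_nonneg (run h n [])).trans (le_ciSup (hbdd n) [])))
  refine ⟨y, fun f => ?_⟩
  by_contra hne
  have hpos : 0 < |Φ f - f y| := abs_pos.2 (sub_ne_zero.2 hne)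
  set M : ℝ := 2 * ‖Φ‖ + 2 * ‖y‖ + 1 with hM
  have hM0 : 0 < M := by positivity
  obtain ⟨A, hA, hAf⟩ := tail_finset f (div_pos hpos hM0)
  set ε := |Φ f - f y| / M
  have hdiff : ∀ z : Y, |f z - f (proj A z)| ≤ ε * (2 * ‖z‖) := by
    intro z
    rw [← map_sub]
    refine (hAf _ fun v hv => ?_).trans (mul_le_mul_of_nonneg_left ?_ (div_pos hpos hM0).le)
    · rw [coord_sub, coord_proj, Pi.sub_apply, Set.indicator_of_mem (Finset.mem_coe.2 hv), sub_self]
    · linarith [norm_sub_le z (proj A z), norm_proj_le hA z]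
  have e1 : Φ (f.comp (proj A)) = f (proj A y) := by
    rw [eval_proj, proj_apply, map_sum, map_sum, hy]
    simp [hh, mul_comm]
  have e2 : ‖f - f.comp (proj A)‖ ≤ ε * 2 := by
    refine ContinuousLinearMap.opNorm_le_bound _ (by positivity) fun z => ?_
    simpa [mul_assoc] using hdiff z
  have e3 : |Φ f - f (proj A y)| ≤ ‖Φ‖ * (ε * 2) := by
    rw [← e1, ← map_sub]
    exact (Φ.le_opNorm _).trans (mul_le_mul_of_nonneg_left e2 (norm_nonneg Φ))
  have e4 := hdiff y
  have : |Φ f - f y| ≤ ε * (M - 1) := by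
    have := abs_sub_le (Φ f) (f (proj A y)) (f y)
    rw [abs_sub_comm] at e4
    rw [hM]; nlinarith
  have : ε * M = |Φ f - f y| := div_mul_cancel₀ _ hM0.ne'
  nlinarith [div_pos hpos hM0]

/-- `X` is reflexive. -/
theorem surjective_bidual :
    Function.Surjective (NormedSpace.inclusionInDoubleDual ℝ X) := by
  intro Ψ
  refine ⟨Ψ.comp (NormedSpace.inclusionInDoubleDual ℝ Y), ?_⟩
  ext Φ
  obtain ⟨y, hy⟩ := exists_eval Φ
  have : NormedSpace.inclusionInDoubleDual ℝ Y y = Φ :=
    ContinuousLinearMap.ext fun f => (hy f).symm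
  rw [NormedSpace.dual_def, hy, ← this]
  rfl

end

end Vale.Agent.P069
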