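import Mathlib.Analysis.Normed.Lp.lpSpace
import Mathlib.Analysis.InnerProductSpace.l2Space
import Mathlib.Analysis.InnerProductSpace.Dual
import Mathlib.Analysis.Normed.Module.DoubleDual

/-!
The space used in P069. A node `(n, s)` is the vertex `s` of the tree number `n`; the parent of
`a :: l` is `l`, and the tree number `n` consists of the lists of length at most `n`.
`Y` consists of square summable functions on the nodes whose running sums along branches have
tree-wise suprema that are square summable, with the maximum of the two norms; `X` is its dual.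
-/

open scoped ENNReal

namespace Vale.Agent.P069

noncomputable section

abbrev Node : Type := ℕ × List ℕ

abbrev SqSum : Type := lp (fun _ : Node => ℝ) 2

abbrev Bdd : Type := lp (fun _ : List ℕ => ℝ) ∞

instance instBdd : NormedAddCommGroup Bdd := inferInstance

instance instBddSpace : NormedSpace ℝ Bdd := inferInstance

abbrev SqBdd : Type := lp (fun _ : ℕ => Bdd) 2

instance instSqSum : NormedAddCommGroup SqSum := inferInstance

instance instSqSumSpace : NormedSpace ℝ SqSum := inferInstance

instance instSqBdd : NormedAddCommGroup SqBdd := inferInstance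

instance instSqBddSpace : NormedSpace ℝ SqBdd := inferInstance

instance : AddCommGroup SqSum := instSqSum.toAddCommGroup

instance : AddCommMonoid SqSum := instSqSum.toAddCommGroup.toAddCommMonoid

instance : AddCommGroup SqBdd := instSqBdd.toAddCommGroup

instance : AddCommMonoid SqBdd := instSqBdd.toAddCommGroup.toAddCommMonoid

instance : Module ℝ SqSum := instSqSumSpace.toModule

instance : Module ℝ SqBdd := instSqBddSpace.toModule

instance : AddCommGroup Bdd := instBdd.toAddCommGroup

instance : AddCommMonoid Bdd := instBdd.toAddCommGroup.toAddCommMonoid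

/-- The running sum of `φ` from the root of tree `n` to the node `s`. -/
def run (φ : Node → ℝ) (n : ℕ) : List ℕ → ℝ
  | [] => φ (n, [])
  | a :: l => φ (n, a :: l) + run φ n l

/-- The increments of a function on the nodes. -/
def diff (Q : Node → ℝ) : Node → ℝ
  | (n, []) => Q (n, [])
  | (n, a :: l) => Q (n, a :: l) - Q (n, l)

theorem run_diff (Q : Node → ℝ) (n : ℕ) : ∀ s, run (diff Q) n s = Q (n, s)
  | [] => rfl
  | a :: l => by simp [run, diff, run_diff Q n l]

theorem run_add (φ ψ : Node → ℝ) (n : ℕ) :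
    ∀ s, run (φ + ψ) n s = run φ n s + run ψ n s
  | [] => by simp [run]
  | a :: l => by simp [run, run_add φ ψ n l]; ring

theorem run_smul (c : ℝ) (φ : Node → ℝ) (n : ℕ) : ∀ s, run (c • φ) n s = c * run φ n s
  | [] => by simp [run]
  | a :: l => by simp [run, run_smul c φ n l, mul_add]

theorem run_zero (n : ℕ) : ∀ s, run 0 n s = 0
  | [] => by simp [run]
  | a :: l => by simp [run, run_zero n l]

theorem run_sub (φ ψ : Node → ℝ) (n : ℕ) (s : List ℕ) :
    run (φ - ψ) n s = run φ n s - run ψ n s := by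
  have h := run_add (φ - ψ) ψ n s
  rw [sub_add_cancel] at h
  linarith

theorem continuous_run (n : ℕ) : ∀ s, Continuous fun φ : Node → ℝ => run φ n s
  | [] => by simpa [run] using continuous_apply (A := fun _ : Node => ℝ) (n, ([] : List ℕ))
  | a :: l => (continuous_apply (A := fun _ : Node => ℝ) (n, a :: l)).add (continuous_run n l)

/-- The graph of the running sums. -/
def ySub : Submodule ℝ (SqSum × SqBdd) where
  carrier := {p | (∀ v : Node, v.1 < v.2.length → (p.1 : Node → ℝ) v = 0) ∧
    ∀ n s, ((p.2 : ℕ → Bdd) n : List ℕ → ℝ) s = run (p.1 : Node → ℝ) n s}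
  add_mem' := by
    intro p q hp hq
    refine ⟨fun v hv => ?_, fun n s => ?_⟩
    · simp [lp.coeFn_add, hp.1 v hv, hq.1 v hv]
    · simp [hp.2 n s, hq.2 n s]
      exact (run_add _ _ n s).symm
  zero_mem' := by
    refine ⟨fun v _ => ?_, fun n s => ?_⟩
    · simp
    · simp
      exact (run_zero n s).symm
  smul_mem' := by
    intro c p hp
    refine ⟨fun v hv => ?_, fun n s => ?_⟩
    · simp [lp.coeFn_smul, hp.1 v hv]
    · simp [hp.2 n s]
      exact (run_smul c _ n s).symm

theorem isClosed_ySub : IsClosed (ySub : Set (SqSum × SqBdd)) := by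
  have h1 : Continuous fun p : SqSum × SqBdd => (p.1 : Node → ℝ) :=
    lp.uniformContinuous_coe.continuous.comp continuous_fst
  have h2 : ∀ (n : ℕ) (s : List ℕ),
      Continuous fun p : SqSum × SqBdd => ((p.2 : ℕ → Bdd) n : List ℕ → ℝ) s := fun n s =>
    (continuous_apply s).comp (lp.uniformContinuous_coe.continuous.comp
      ((continuous_apply n).comp (lp.uniformContinuous_coe.continuous.comp continuous_snd)))
  have he : (ySub : Set (SqSum × SqBdd)) =
      (⋂ (v : Node) (_ : v.1 < v.2.length), {p | (p.1 : Node → ℝ) v = 0}) ∩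
        ⋂ (n : ℕ) (s : List ℕ),
          {p | ((p.2 : ℕ → Bdd) n : List ℕ → ℝ) s = run (p.1 : Node → ℝ) n s} := by
    ext p
    simp only [Set.mem_inter_iff, Set.mem_iInter]
    rfl
  rw [he]
  refine IsClosed.inter (isClosed_iInter fun v => isClosed_iInter fun _ => ?_)
    (isClosed_iInter fun n => isClosed_iInter fun s => ?_)
  · exact isClosed_eq ((continuous_apply v).comp h1) continuous_const
  · exact isClosed_eq (h2 n s) ((continuous_run n s).comp h1)

abbrev Y : Type := ↥ySub

instance instY : NormedAddCommGroup Y := inferInstance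

instance instYSpace : NormedSpace ℝ Y := inferInstance

instance : AddCommGroup Y := instY.toAddCommGroup

instance : AddCommMonoid Y := instY.toAddCommGroup.toAddCommMonoid

instance : Module ℝ Y := instYSpace.toModule

instance : SMul ℝ Y := instYSpace.toModule.toSMul

instance : CompleteSpace Y := isClosed_ySub.completeSpace_coe

abbrev X : Type := StrongDual ℝ Y

instance instX : NormedAddCommGroup X := inferInstance

instance instXSpace : NormedSpace ℝ X := inferInstance

/-- The coordinates of an element of `Y`. -/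
def coord (y : Y) : Node → ℝ := fun v => (y.1.1 : Node → ℝ) v

/-- The largest absolute running sum of `y` in tree `n`. -/
def rmax (y : Y) (n : ℕ) : ℝ := ‖(y.1.2 : ℕ → Bdd) n‖

theorem coord_add (y z : Y) : coord (y + z) = coord y + coord z := rfl

theorem coord_sub (y z : Y) : coord (y - z) = coord y - coord z := rfl

theorem coord_smul (c : ℝ) (y : Y) : coord (c • y) = c • coord y := rfl

theorem coord_zero : coord 0 = 0 := rfl

theorem coord_neg (y : Y) : coord (-y) = -coord y := rfl

theorem coord_eq_zero (y : Y) {v : Node} (hv : v.1 < v.2.length) : coord y v = 0 := y.2.1 v hv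

theorem y_ext {y z : Y} (h : coord y = coord z) : y = z := by
  apply Subtype.ext
  have h1 : y.1.1 = z.1.1 := lp.ext h
  refine Prod.ext h1 ?_
  refine lp.ext (funext fun n => lp.ext (funext fun s => ?_))
  rw [y.2.2 n s, z.2.2 n s, h1]

theorem rmax_nonneg (y : Y) (n : ℕ) : 0 ≤ rmax y n := norm_nonneg _

theorem abs_run_le (y : Y) (n : ℕ) (s : List ℕ) : |run (coord y) n s| ≤ rmax y n := by
  have h := lp.norm_apply_le_norm ENNReal.top_ne_zero ((y.1.2 : ℕ → Bdd) n) s
  rw [Real.norm_eq_abs, y.2.2 n s] at h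
  exact h

theorem sum_norm_sq_le {α : Type*} {E : α → Type*} [∀ i, NormedAddCommGroup (E i)]
    (f : lp E 2) (F : Finset α) : ∑ i ∈ F, ‖f i‖ ^ 2 ≤ ‖f‖ ^ 2 := by
  have h := lp.sum_rpow_le_norm_rpow (p := 2) (by norm_num) f F
  simpa using h

theorem sum_coord_sq_le (y : Y) (F : Finset Node) : ∑ v ∈ F, coord y v ^ 2 ≤ ‖y‖ ^ 2 := by
  calc ∑ v ∈ F, coord y v ^ 2 = ∑ v ∈ F, ‖(y.1.1 : Node → ℝ) v‖ ^ 2 := by
        refine Finset.sum_congr rfl fun v _ => ?_
        rw [Real.norm_eq_abs, sq_abs]; rfl
    _ ≤ ‖y.1.1‖ ^ 2 := sum_norm_sq_le _ _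
    _ ≤ ‖y‖ ^ 2 := pow_le_pow_left₀ (norm_nonneg _) (norm_fst_le y.1) 2

theorem sum_rmax_sq_le (y : Y) (F : Finset ℕ) : ∑ n ∈ F, rmax y n ^ 2 ≤ ‖y‖ ^ 2 :=
  (sum_norm_sq_le y.1.2 F).trans (pow_le_pow_left₀ (norm_nonneg _) (norm_snd_le y.1) 2)

/-- The universal way to build elements of `Y` and to bound their norms. -/
theorem exists_y (φ : Node → ℝ) (c : ℕ → ℝ) {C : ℝ} (hC : 0 ≤ C)
    (hs : ∀ v : Node, v.1 < v.2.length → φ v = 0) (hr : ∀ n s, |run φ n s| ≤ c n)
    (hφ : ∀ F : Finset Node, ∑ v ∈ F, φ v ^ 2 ≤ C ^ 2)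
    (hc : ∀ F : Finset ℕ, ∑ n ∈ F, c n ^ 2 ≤ C ^ 2) :
    ∃ y : Y, coord y = φ ∧ ‖y‖ ≤ C := by
  have hc0 : ∀ n, 0 ≤ c n := fun n => (abs_nonneg _).trans (hr n [])
  have hφ' : ∀ F : Finset Node, ∑ v ∈ F, ‖φ v‖ ^ (2 : ℝ≥0∞).toReal ≤ C ^ 2 := by
    intro F
    simpa using hφ F
  have m1 : Memℓp φ 2 := memℓp_gen' hφ'
  have mR : ∀ n, Memℓp (fun s => run φ n s) ∞ := fun n =>
    memℓp_infty ⟨c n, by rintro _ ⟨s, rfl⟩; exact (Real.norm_eq_abs _).trans_le (hr n s)⟩
  let R : ℕ → Bdd := fun n => ⟨fun s => run φ n s, mR n⟩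
  have hR : ∀ n, ‖R n‖ ≤ c n := fun n =>
    lp.norm_le_of_forall_le (hc0 n) fun s => (Real.norm_eq_abs _).trans_le (hr n s)
  have hR' : ∀ F : Finset ℕ, ∑ n ∈ F, ‖R n‖ ^ (2 : ℝ≥0∞).toReal ≤ C ^ 2 := by
    intro F
    refine le_trans ?_ (hc F)
    refine Finset.sum_le_sum fun n _ => ?_
    simpa using pow_le_pow_left₀ (norm_nonneg _) (hR n) 2
  have m2 : Memℓp R 2 := memℓp_gen' hR'
  refine ⟨⟨(⟨φ, m1⟩, ⟨R, m2⟩), hs, fun n s => rfl⟩, rfl, ?_⟩
  refine norm_prod_le_iff.2 ⟨?_, ?_⟩
  · refine lp.norm_le_of_forall_sum_le (by norm_num) hC fun F => ?_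
    simpa using hφ F
  · refine lp.norm_le_of_forall_sum_le (by norm_num) hC fun F => ?_
    simpa using hR' F

/-- A set of nodes that contains the parent of each of its members. -/
def DownClosed (A : Set Node) : Prop := ∀ n a l, (n, a :: l) ∈ A → (n, l) ∈ A

theorem run_indicator_of_mem {A : Set Node} (hA : DownClosed A) (φ : Node → ℝ) (n : ℕ) :
    ∀ s, (n, s) ∈ A → run (A.indicator φ) n s = run φ n s
  | [], h => by simp [run, Set.indicator_of_mem h]
  | a :: l, h => by
    simp [run, Set.indicator_of_mem h, run_indicator_of_mem hA φ n l (hA n a l h)]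

theorem abs_run_indicator_le {A : Set Node} (hA : DownClosed A) (φ : Node → ℝ) (n : ℕ) {c : ℝ}
    (hc : ∀ s, |run φ n s| ≤ c) : ∀ s, |run (A.indicator φ) n s| ≤ c := by
  intro s
  induction s with
  | nil =>
    by_cases h : (n, ([] : List ℕ)) ∈ A
    · rw [run_indicator_of_mem hA φ n [] h]; exact hc _
    · simpa [run, Set.indicator_of_notMem h] using (abs_nonneg _).trans (hc [])
  | cons a l ih =>
    by_cases h : (n, a :: l) ∈ A
    · rw [run_indicator_of_mem hA φ n _ h]; exact hc _
    · simpa [run, Set.indicator_of_notMem h] using ih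

theorem exists_restrict {A : Set Node} (hA : DownClosed A) (y : Y) :
    ∃ y' : Y, coord y' = A.indicator (coord y) ∧ ‖y'‖ ≤ ‖y‖ := by
  refine exists_y _ (rmax y) (norm_nonneg y) ?_ ?_ ?_ (sum_rmax_sq_le y)
  · intro v hv
    exact Set.indicator_apply_eq_zero.2 fun _ => coord_eq_zero y hv
  · exact fun n => abs_run_indicator_le hA _ n (abs_run_le y n)
  · intro F
    refine le_trans (Finset.sum_le_sum fun v _ => ?_) (sum_coord_sq_le y F)
    by_cases h : v ∈ A
    · simp [Set.indicator_of_mem h]
    · simpa [Set.indicator_of_notMem h] using sq_nonneg (coord y v)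

/-- The downward closure of a finite set of nodes. -/
def closure' (A : Finset Node) : Finset Node :=
  A.biUnion fun v => v.2.tails.toFinset.image fun t => (v.1, t)

theorem mem_closure' {A : Finset Node} {n : ℕ} {t : List ℕ} :
    (n, t) ∈ closure' A ↔ ∃ s, (n, s) ∈ A ∧ t <:+ s := by
  simp only [closure', Finset.mem_biUnion, Finset.mem_image, List.mem_toFinset, List.mem_tails]
  constructor
  · rintro ⟨⟨m, s⟩, hs, t', ht, h⟩
    obtain ⟨rfl, rfl⟩ := Prod.mk.inj h
    exact ⟨s, hs, ht⟩
  · rintro ⟨s, hs, ht⟩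
    exact ⟨(n, s), hs, t, ht, rfl⟩

theorem subset_closure' (A : Finset Node) : A ⊆ closure' A := fun v hv =>
  mem_closure'.2 ⟨v.2, hv, List.suffix_refl _⟩

theorem downClosed_closure' (A : Finset Node) : DownClosed (closure' A : Set Node) := by
  intro n a l h
  obtain ⟨s, hs, ht⟩ := mem_closure'.1 (Finset.mem_coe.1 h)
  exact Finset.mem_coe.2 (mem_closure'.2 ⟨s, hs, (List.suffix_cons a l).trans ht⟩)

/-- Evaluation of a coordinate, an element of `X`. -/
def evec (v : Node) : X :=
  LinearMap.mkContinuous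
    { toFun := fun y => coord y v
      map_add' := fun _ _ => rfl
      map_smul' := fun _ _ => rfl } 1 fun y => by
    have h := sum_coord_sq_le y {v}
    rw [Finset.sum_singleton] at h
    rw [one_mul, Real.norm_eq_abs]
    exact abs_le_of_sq_le_sq h (norm_nonneg _)

@[simp] theorem evec_apply (v : Node) (y : Y) : evec v y = coord y v := rfl

theorem rmax_le_norm (y : Y) (n : ℕ) : rmax y n ≤ ‖y‖ := by
  have h := sum_rmax_sq_le y {n}
  rw [Finset.sum_singleton] at h
  exact le_of_abs_le (abs_le_of_sq_le_sq h (norm_nonneg _))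

/-- Evaluation of a running sum, an element of `X`. -/
def pathVec (n : ℕ) (s : List ℕ) : X :=
  LinearMap.mkContinuous
    { toFun := fun y => run (coord y) n s
      map_add' := fun y z => run_add (coord y) (coord z) n s
      map_smul' := fun c y => run_smul c (coord y) n s } 1 fun y => by
    rw [one_mul, Real.norm_eq_abs]
    exact (abs_run_le y n s).trans (rmax_le_norm y n)

@[simp] theorem pathVec_apply (n : ℕ) (s : List ℕ) (y : Y) :
    pathVec n s y = run (coord y) n s := rfl

theorem run_single (v : Node) (c : ℝ) (n : ℕ) :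
    ∀ s, run (Pi.single v c) n s = if v.1 = n ∧ v.2 <:+ s then c else 0
  | [] => by
    obtain ⟨m, t⟩ := v
    simp only [run, Pi.single_apply, List.suffix_nil, Prod.mk.injEq]
    simp [eq_comm]
  | a :: l => by
    obtain ⟨m, t⟩ := v
    simp only [run, run_single (m, t) c n l, Pi.single_apply, List.suffix_cons_iff, Prod.mk.injEq]
    by_cases hm : m = n
    · subst hm
      by_cases ht : t = a :: l
      · subst ht
        have : ¬ (a :: l) <:+ l := fun h => by
          have := h.length_le
          simp at this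
        simp [this]
      · simp [ht, Ne.symm ht]
    · simp [hm, Ne.symm hm]

theorem exists_delta (v : Node) :
    ∃ y : Y, coord y = Pi.single v (if v.2.length ≤ v.1 then 1 else 0) ∧ ‖y‖ ≤ 1 := by
  set c : ℝ := if v.2.length ≤ v.1 then 1 else 0 with hc
  have hc1 : 0 ≤ c ∧ c ≤ 1 := by rw [hc]; split_ifs <;> norm_num
  refine exists_y _ (Pi.single v.1 1) zero_le_one ?_ ?_ ?_ ?_
  · intro w hw
    rw [Pi.single_apply]
    split_ifs with h
    · subst h
      rw [hc, if_neg (by omega)]
    · rfl
  · intro n s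
    rw [run_single]
    split_ifs with h
    · rw [h.1, Pi.single_eq_same, abs_of_nonneg hc1.1]; exact hc1.2
    · rw [abs_zero, Pi.single_apply]; split_ifs <;> norm_num
  · intro F
    calc ∑ w ∈ F, (Pi.single v c : Node → ℝ) w ^ 2
        = ∑ w ∈ F, if w = v then c ^ 2 else 0 := by
          refine Finset.sum_congr rfl fun w _ => ?_
          rw [Pi.single_apply]; split_ifs <;> simp
      _ ≤ 1 ^ 2 := by
          rw [Finset.sum_ite_eq']
          split_ifs
          · exact pow_le_pow_left₀ hc1.1 hc1.2 2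
          · norm_num
  · intro F
    calc ∑ n ∈ F, (Pi.single v.1 1 : ℕ → ℝ) n ^ 2
        = ∑ n ∈ F, if n = v.1 then (1 : ℝ) else 0 := by
          refine Finset.sum_congr rfl fun n _ => ?_
          rw [Pi.single_apply]; split_ifs <;> simp
      _ ≤ 1 ^ 2 := by
          rw [Finset.sum_ite_eq']
          split_ifs <;> norm_num

/-- The unit vector of `Y` at a node of one of the trees (zero for the other nodes). -/
def delta (v : Node) : Y := (exists_delta v).choose

theorem coord_delta (v : Node) :
    coord (delta v) = Pi.single v (if v.2.length ≤ v.1 then 1 else 0) :=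
  (exists_delta v).choose_spec.1

theorem norm_delta_le (v : Node) : ‖delta v‖ ≤ 1 := (exists_delta v).choose_spec.2

/-- The projection on a finite set of nodes. -/
def proj (A : Finset Node) : Y →L[ℝ] Y := ∑ v ∈ A, (evec v).smulRight (delta v)

theorem proj_apply (A : Finset Node) (y : Y) : proj A y = ∑ v ∈ A, coord y v • delta v := by
  simp [proj]

theorem coord_proj (A : Finset Node) (y : Y) :
    coord (proj A y) = (A : Set Node).indicator (coord y) := by
  funext w
  have h : coord (proj A y) w = evec w (proj A y) := rfl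
  rw [h, proj_apply, map_sum]
  simp only [map_smul, evec_apply, coord_delta, smul_eq_mul, Pi.single_apply, mul_ite, mul_zero,
    mul_one, Finset.sum_ite_eq, Set.indicator_apply, Finset.mem_coe]
  split_ifs with h1 h2
  · rfl
  · exact (coord_eq_zero y (by omega)).symm
  · rfl

theorem norm_proj_le {A : Finset Node} (hA : DownClosed (A : Set Node)) (y : Y) :
    ‖proj A y‖ ≤ ‖y‖ := by
  obtain ⟨y', h1, h2⟩ := exists_restrict hA y
  rw [y_ext ((coord_proj A y).trans h1.symm)]
  exact h2

end

end Vale.Agent.P069
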